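import Vale.Agent.P092.H144.Mp.RedP
import Vale.Agent.P092.H259.Mx.BplL
import Vale.Agent.P092.H759.TL.TExt
import Vale.Agent.P092.H213.Irr.MinW

/-!
P092, project MIX (helper144): lattices in finite products of simple groups over local fields, every
irreducible component of which has at least two factors or is of type `A_n` (every characteristic);
from the literal `MixStmtP` and the theorem for the class `UN.LatticeP`. Letter-free form.
-/

set_option linter.all false

namespace Vale.Agent.P092.H144.Mp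

open Vale.Agent.P092.H259.Mx (Bpl bpl_typeL)
open Vale.Agent.P092.H188.LatP (PG t2_pg sc_pg lc_pg)

/-- **The class `ClsV`.** -/
theorem bpl_clsV (G : Type) [Group G] [TopologicalSpace G] (h : UN.ClsV G) : Bpl G :=
  ⟨H259.Fk.ovG_clsV h, H213.Irr.minC_clsV h, H144.Nc.nd_clsV h⟩

/-- **All classes**, letter-free: property (T) is used only for the places of type `A_n`. -/
theorem superAll_prodY (mix : MixStmtP)
    (hP : ∀ (Γ : Type) [Group Γ], UN.LatticeP Γ → UN.SuperAll Γ) {Γ I : Type} [Fintype I]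
    [Group Γ] (hicc : UN.ICC Γ) {G : I → Type} [∀ j, Group (G j)] [∀ j, TopologicalSpace (G j)]
    {E : Type} [Group E] [TopologicalSpace E] [IsTopologicalGroup E] (f : E →* ∀ j, G j)
    (hf : IsProperMap f) (hr : f.range.FiniteIndex) (i : Γ →* E) (hi : Function.Injective i)
    (hl : UN.IsLattice i.range)
    (hd : ∀ j, (UN.PropT Γ ∨ UN.KazT E) ∧ TypeR (G j) ∨ (UN.ClsV (G j) ∨ UN.TypeL (G j)) ∧
      ¬ DiscreteTopology (Set.range fun g => f (i g) j)) : UN.SuperAll Γ := by
  have hB : ∀ j, (UN.ClsV (G j) ∨ UN.TypeL (G j)) → Bpl (G j) := fun j h =>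
    h.elim (bpl_clsV _) (bpl_typeL _)
  have hd' : ∀ j, TypeR (G j) ∨ Bpl (G j) ∧
      ¬ DiscreteTopology (Set.range fun g => f (i g) j) := fun j =>
    (hd j).imp (fun h => h.2) fun h => ⟨hB j h.1, h.2⟩
  by_cases hD : ∀ j, Bpl (G j) ∧ ¬ DiscreteTopology (Set.range fun g => f (i g) j)
  · exact H259.Fk.superAll_prop hicc f hf hr i hi hl (fun j => (hD j).1.ov)
      fun j => Or.inr ⟨(hD j).1.nd, (hD j).2⟩
  obtain ⟨j₀, hj₀⟩ := not_forall.1 hD
  have hT : UN.PropT Γ ∨ UN.KazT E := by
    rcases hd j₀ with h | h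
    · exact h.1
    · exact (hj₀ ⟨hB j₀ h.1, h.2⟩).elim
  have htop : ∀ j, IsTopologicalGroup (G j) ∧ T2Space (G j) ∧ LocallyCompactSpace (G j) ∧
      SecondCountableTopology (G j) := by
    intro j
    rcases hd' j with h | ⟨h, -⟩
    · obtain ⟨k, _, n, p, hps, hk, hn, hp, hs⟩ := typeR_old h
      haveI := t2_pg k n
      haveI := lc_pg k n
      haveI := sc_pg k n
      exact ⟨hp.isInducing.topologicalGroup p, hp.isEmbedding.t2Space, hp.locallyCompactSpace,
        hp.isEmbedding.secondCountableTopology⟩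
    · obtain ⟨M, _, _, φ, r, h⟩ := h.ov
      exact ⟨h.top, H333.V.Ov.t2 h, H333.V.Ov.lc h, H333.V.Ov.sc h⟩
  haveI := fun j => (htop j).1
  haveI := fun j => (htop j).2.1
  haveI := fun j => (htop j).2.2.1
  haveI := fun j => (htop j).2.2.2
  have hT' : UN.PropT Γ := hT.elim id fun h => H759.TL.propT_of_ext hicc f hf i hi hl h
  exact superAll_bdP mix hP hicc hT' f hf hr i hi hl hd'

end Vale.Agent.P092.H144.Mp
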