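import Vale.Agent.P092.UN.StZ
import Vale.Agent.P092.UN.NfV
import Vale.Agent.P092.H144.Mp.LatY

/-!
P092, project MIX (helper144): the class `UN.LatticeZ`, from the literal `MixStmtP` and the theorem for
the class `UN.LatticeP`; it contains the class `UN.LatticeX`.
-/

set_option linter.all false

open Matrix

namespace Vale.Agent.P092.H144.Mp

theorem typeR_of_typeY {G : Type} [Group G] [TopologicalSpace G] (h : UN.TypeY G) : TypeR G := by
  obtain ⟨k, i1, n, P, i2, i3, T, p, h1, h3, h4⟩ := h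
  obtain ⟨e, he, hT⟩ := UN.pgl_iso h1
  refine ⟨k, i1, n, h1.1, h1.2.1, h1.2.2.1, e.comp p, ?_, ?_⟩
  · exact he.isClosedEmbedding.comp h3
  · rintro _ ⟨g, hg, rfl⟩
    obtain ⟨x, hx, hxe⟩ := hT g hg
    obtain ⟨y, hy⟩ := h4 x hx
    exact ⟨y, by rw [MonoidHom.comp_apply, hy, hxe]⟩

/-- **The product class.** -/
theorem superAll_latticeZ_of (mix : MixStmtP)
    (hP : ∀ (Γ : Type) [Group Γ], UN.LatticeP Γ → UN.SuperAll Γ) (Γ : Type) [Group Γ]
    (h : UN.LatticeZ Γ) : UN.SuperAll Γ := by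
  obtain ⟨hicc, J, hJ, G, hg, ht, E, gE, tE, f, i, htE, hf, hr, hi, hl, hd⟩ := h
  exact superAll_prodY mix hP hicc f hf hr i hi hl fun j => (hd j).imp
    (fun h => ⟨h.1.imp UN.propT_of_hasT UN.kazT_of_hasTC, typeR_of_typeY h.2⟩)
    fun h => ⟨h.1.imp_right UN.typeX_iff.1, h.2⟩

/-- `TypeZ` groups are of the class `ClsV`. -/
theorem clsV_of_typeZ {G : Type} [Group G] [TopologicalSpace G] (h : UN.TypeZ G) : UN.ClsV G :=
  (H259.Mx.clsV_typeP (UN.typeP_of_typeZ h)).1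

theorem typeY_of_typeZ {G : Type} [Group G] [TopologicalSpace G] (h : UN.TypeZ G) :
    UN.TypeY G := by
  obtain ⟨k, i1, n, P, i2, i3, T, p, h1, -, h3, h4⟩ := h
  exact ⟨k, i1, n, P, i2, i3, T, p, h1, h3, h4⟩

/-- **The class `LatticeX` is contained in the class `LatticeZ`.** -/
theorem latticeZ_of_latticeX {Γ : Type} [Group Γ] (h : UN.LatticeX Γ) : UN.LatticeZ Γ := by
  obtain ⟨hicc, J, hJ, G, hg, ht, E, gE, tE, f, i, htE, hf, hr, hi, hl, hT, hd⟩ := h
  refine ⟨hicc, J, hJ, G, hg, ht, E, gE, tE, f, i, htE, hf, hr, hi, hl, fun j => ?_⟩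
  rcases hd j with h | h
  · rcases hT with hT | hT | hT
    · exact Or.inl ⟨Or.inl hT, typeY_of_typeZ h⟩
    · exact Or.inl ⟨Or.inr hT, typeY_of_typeZ h⟩
    · exact Or.inr ⟨Or.inl (clsV_of_typeZ h), hT j⟩
  · exact Or.inr h

end Vale.Agent.P092.H144.Mp
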