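import Vale.Agent.P092.UN.StF
import Vale.Agent.P092.H144.Mp.NfZ

/-!
P092, project MIX (helper144): the class `UN.LatticeF`: products of groups of type `A_n` without
property (T), and the class `UN.LatticeZ`.
-/

set_option linter.all false

open Matrix Topology

namespace Vale.Agent.P092.H144.Mp

open Vale.Agent.P092.H188.LatP (PG t2_pg sc_pg lc_pg)

/-- **Lattices in products of groups of type `A_n`**, reducible or not, with or without property (T). -/
theorem superAll_typeR (hP : ∀ (Γ : Type) [Group Γ], UN.LatticeP Γ → UN.SuperAll Γ) {Γ I : Type}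
    [Fintype I] [Group Γ] (hicc : UN.ICC Γ) {G : I → Type} [∀ j, Group (G j)]
    [∀ j, TopologicalSpace (G j)] {E : Type} [Group E] [TopologicalSpace E]
    [IsTopologicalGroup E] (f : E →* ∀ j, G j) (hf : IsProperMap f) (hr : f.range.FiniteIndex)
    (i : Γ →* E) (hi : Function.Injective i) (hl : UN.IsLattice i.range)
    (h : ∀ j, TypeR (G j)) : UN.SuperAll Γ := by
  classical
  choose k nk n p hps hk hn hp hs using fun j => typeR_old (h j)
  haveI : ∀ j, T2Space (PG (k j) (n j)) := fun j => t2_pg _ _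
  haveI : ∀ j, LocallyCompactSpace (PG (k j) (n j)) := fun j =>
    haveI := hps j
    lc_pg _ _
  haveI : ∀ j, IsTopologicalGroup (G j) := fun j => (hp j).isInducing.topologicalGroup (p j)
  haveI : ∀ j, T2Space (G j) := fun j => (hp j).isEmbedding.t2Space
  haveI : ∀ j, LocallyCompactSpace (G j) := fun j => (hp j).locallyCompactSpace
  obtain ⟨h3, h4⟩ := Vale.Agent.P092.H259.Fk.lat_proper' hicc f hf hr i hi ⟨hl.disc, hl.covol⟩
  obtain ⟨F, hF⟩ : ∃ F : (∀ j, G j) →* ∀ j, PG (k j) (n j), ∀ x j, F x j = p j (x j) :=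
    ⟨MonoidHom.pi fun j => (p j).comp (Pi.evalMonoidHom G j), fun x j => rfl⟩
  have hFc : IsClosedEmbedding F := by
    have h5 : (F : (∀ j, G j) → _) = Pi.map fun j => (p j : G j → PG (k j) (n j)) :=
      funext fun x => funext fun j => hF x j
    rw [h5]
    exact IsClosedEmbedding.piMap hp
  refine hP Γ ⟨hicc, I, inferInstance, inferInstance, k, nk, n, ∀ j, G j, inferInstance,
    inferInstance, F, f.comp i, inferInstance, fun j => ⟨hps j, hk j, hn j⟩, hFc.isProperMap,
    fun j g hg => ?_, h3, (UN.isLattice_iff _).2 ⟨h4.disc, h4.covol⟩⟩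
  obtain ⟨e, he⟩ := hs j g hg
  refine ⟨Pi.mulSingle j e, funext fun l => ?_⟩
  rw [hF]
  by_cases hlj : l = j
  · subst hlj
    rw [Pi.mulSingle_eq_same, Pi.mulSingle_eq_same, he]
  · rw [Pi.mulSingle_eq_of_ne hlj, Pi.mulSingle_eq_of_ne hlj, map_one]

/-- **The product class.** -/
theorem superAll_latticeF_of (mix : MixStmtP)
    (hP : ∀ (Γ : Type) [Group Γ], UN.LatticeP Γ → UN.SuperAll Γ) (Γ : Type) [Group Γ]
    (h : UN.LatticeF Γ) : UN.SuperAll Γ := by
  obtain ⟨hicc, J, hJ, G, hg, ht, E, gE, tE, f, i, htE, hf, hr, hi, hl, hd⟩ := h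
  by_cases hall : ∀ l, UN.TypeY (G l)
  · exact superAll_typeR hP hicc f hf hr i hi hl fun j => typeR_of_typeY (hall j)
  · exact superAll_latticeZ_of mix hP Γ ⟨hicc, J, hJ, G, hg, ht, E, gE, tE, f, i, htE, hf, hr,
      hi, hl, fun j => (hd j).imp (fun h => ⟨h.1.elim Or.inl fun h => h.elim Or.inr fun h =>
        (hall h).elim, h.2⟩) id⟩

/-- **The class `LatticeZ` is contained in the class `LatticeF`.** -/
theorem latticeF_of_latticeZ {Γ : Type} [Group Γ] (h : UN.LatticeZ Γ) : UN.LatticeF Γ := by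
  obtain ⟨hicc, J, hJ, G, hg, ht, E, gE, tE, f, i, htE, hf, hr, hi, hl, hd⟩ := h
  exact ⟨hicc, J, hJ, G, hg, ht, E, gE, tE, f, i, htE, hf, hr, hi, hl, fun j => (hd j).imp
    (fun h => ⟨h.1.elim Or.inl fun h => Or.inr (Or.inl h), h.2⟩) id⟩

end Vale.Agent.P092.H144.Mp
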