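import Vale.Agent.P092.H515.LatSl
import Vale.Agent.P092.H719.Lat1

/-!
P092, project MIX (helper144), (L1): a lattice which is contained in a closed normal cocompact
subgroup is a lattice of this subgroup.
-/

set_option linter.all false

open MeasureTheory MeasureTheory.Measure Set Filter Topology
open scoped ENNReal NNReal Pointwise

namespace Vale.Agent.P092.H144.Mp

open Vale.Agent.P092.H515.St (IsLattice)
open Vale.Agent.P092.H515 (fdom fdom_meas)

section l1

variable {E : Type} [Group E] [TopologicalSpace E] [IsTopologicalGroup E] [T2Space E]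
  [LocallyCompactSpace E] [SecondCountableTopology E]

theorem disc_subgroupOf (N Γ : Subgroup E) (h : DiscreteTopology Γ) :
    DiscreteTopology (Γ.subgroupOf N) := by
  have h1 : Continuous fun x : Γ.subgroupOf N => (⟨(x : N), x.2⟩ : Γ) :=
    (continuous_subtype_val.comp continuous_subtype_val).subtype_mk _
  have h2 : Function.Injective fun x : Γ.subgroupOf N => (⟨(x : N), x.2⟩ : Γ) := by
    intro x y hxy
    exact Subtype.ext (Subtype.ext (congrArg (fun z : Γ => (z : E)) hxy))
  exact DiscreteTopology.of_continuous_injective h1 h2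

/-- **Lattices in closed normal cocompact subgroups** -/
theorem lat_normal (N : Subgroup E) (hn : N.Normal) (hN : IsClosed (N : Set E)) {C : Set E}
    (hC : IsCompact C) (hCN : ∀ g : E, ∃ c ∈ C, ∃ e ∈ N, g = c * e) (Γ : Subgroup E)
    (hΓN : Γ ≤ N) (hΓ : IsLattice Γ) : IsLattice (Γ.subgroupOf N) := by
  letI : MeasurableSpace E := borel E
  haveI : BorelSpace E := ⟨rfl⟩
  letI : MeasurableSpace N := borel N
  haveI : BorelSpace N := ⟨rfl⟩
  letI : MeasurableSpace (E ⧸ Γ) := borel _
  haveI : BorelSpace (E ⧸ Γ) := ⟨rfl⟩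
  letI : MeasurableSpace (E ⧸ N) := borel _
  haveI : BorelSpace (E ⧸ N) := ⟨rfl⟩
  haveI := hΓ.disc
  haveI := hN
  haveI : T2Space (E ⧸ N) := inferInstance
  haveI : SecondCountableTopology (E ⧸ N) := inferInstance
  have hce : IsClosedEmbedding (Subtype.val : N → E) := hN.isClosedEmbedding_subtypeVal
  haveI : LocallyCompactSpace N := hce.locallyCompactSpace
  haveI : SecondCountableTopology N := TopologicalSpace.Subtype.secondCountableTopology _
  obtain ⟨ν, hνp, hν⟩ := H515.IsLattice.exists_prob (Λ := Γ) ⟨hΓ.disc, hΓ.covol⟩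
  haveI hQ : CompactSpace (E ⧸ N) := by
    refine ⟨?_⟩
    have h3 := hC.image (QuotientGroup.continuous_mk (N := N))
    refine h3.of_isClosed_subset isClosed_univ fun x _ => ?_
    obtain ⟨g, rfl⟩ := QuotientGroup.mk_surjective x
    obtain ⟨c, hcC, e, he, rfl⟩ := hCN g
    exact ⟨c, hcC, (QuotientGroup.mk_mul_of_mem c he).symm⟩
  let lam : Measure N := Measure.haar
  let F : E → Set E → ℝ≥0∞ := fun g A => lam ((fun n : N => g * (n : E)) ⁻¹' A)
  have hcs : ∀ g : E, Measurable fun n : N => g * (n : E) := fun g =>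
    (continuous_const.mul continuous_subtype_val).measurable
  have hF : ∀ g h : E, h ∈ N → ∀ A, F (g * h) A = F g A := by
    intro g h hh A
    have h1 : (fun n : N => g * h * (n : E)) ⁻¹' A =
        (fun n : N => (⟨h, hh⟩ : N) * n) ⁻¹' ((fun n : N => g * (n : E)) ⁻¹' A) := by
      ext n
      simp only [mem_preimage, Subgroup.coe_mul, mul_assoc]
    show lam _ = lam _
    rw [h1, measure_preimage_mul]
  let κ : E ⧸ N → Measure E := fun q => lam.map fun n : N => q.out * (n : E)
  have hκ : ∀ (g : E) (A : Set E), MeasurableSet A → κ (QuotientGroup.mk g) A = F g A := by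
    intro g A hA
    change (lam.map fun n : N => (QuotientGroup.mk g : E ⧸ N).out * (n : E)) A = _
    rw [Measure.map_apply (hcs _) hA]
    obtain ⟨h, hh⟩ := QuotientGroup.mk_out_eq_mul N g
    rw [hh]
    exact hF g h h.2 A
  have hFm : ∀ A : Set E, MeasurableSet A → Measurable fun g => F g A := by
    intro A hA
    have h3 : Measurable fun z : E × N => z.1 * (z.2 : E) :=
      (continuous_fst.mul (continuous_subtype_val.comp continuous_snd)).measurable
    exact measurable_measure_prodMk_left (h3 hA)
  haveI hCc : CompactSpace C := isCompact_iff_compactSpace.1 hC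
  haveI : PolishSpace C := H719.Lt.polish_compact C
  have hκm : Measurable κ := by
    refine Measure.measurable_of_measurable_coe _ fun A hA => ?_
    let π : C → E ⧸ N := fun c => QuotientGroup.mk c.1
    have hπ : Continuous π := QuotientGroup.continuous_mk.comp continuous_subtype_val
    have hπs : Function.Surjective π := by
      intro x
      obtain ⟨g, rfl⟩ := QuotientGroup.mk_surjective x
      obtain ⟨c, hcC, e, he, rfl⟩ := hCN g
      exact ⟨⟨c, hcC⟩, (QuotientGroup.mk_mul_of_mem c he).symm⟩
    rw [← hπ.measurable.measurable_comp_iff_of_surjective hπs]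
    have h3 : ((fun q => κ q A) ∘ π) = fun c : C => F c.1 A := funext fun c => hκ c.1 A hA
    rw [h3]
    exact (hFm A hA).comp measurable_subtype_coe
  let η : Measure (E ⧸ N) := Measure.haar
  have hη : IsFiniteMeasure η := inferInstance
  let μ' : Measure E := η.bind κ
  have hb : ∀ A, MeasurableSet A → μ' A = ∫⁻ q, κ q A ∂η := fun A hA =>
    Measure.bind_apply hA hκm.aemeasurable
  haveI hl : IsMulLeftInvariant μ' := by
    refine ⟨fun g => ?_⟩
    ext A hA
    have hgA : MeasurableSet ((fun x => g * x) ⁻¹' A) := measurable_const_mul g hA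
    rw [Measure.map_apply (measurable_const_mul g) hA, hb _ hgA, hb _ hA]
    have h3 : ∀ q, κ q ((fun x => g * x) ⁻¹' A) = κ ((QuotientGroup.mk g : E ⧸ N) * q) A := by
      intro q
      obtain ⟨x, rfl⟩ := QuotientGroup.mk_surjective q
      rw [← QuotientGroup.mk_mul, hκ x _ hgA, hκ (g * x) _ hA]
      show lam _ = lam _
      congr 1
      ext n
      simp only [mem_preimage, mul_assoc]
    simp only [h3]
    exact lintegral_mul_left_eq_self (fun q => κ q A) _
  haveI hc : IsFiniteMeasureOnCompacts μ' := by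
    refine ⟨fun K hK => ?_⟩
    have hKm : MeasurableSet K := hK.isClosed.measurableSet
    have h1 : IsCompact ((Subtype.val : N → E) ⁻¹' (C⁻¹ * K)) :=
      hce.isCompact_preimage (hC.inv.mul hK)
    have h2 : lam ((Subtype.val : N → E) ⁻¹' (C⁻¹ * K)) < ∞ := h1.measure_lt_top
    rw [hb K hKm]
    have h3 : ∀ q, κ q K ≤ lam ((Subtype.val : N → E) ⁻¹' (C⁻¹ * K)) := by
      intro q
      obtain ⟨g, rfl⟩ := QuotientGroup.mk_surjective q
      rw [hκ g K hKm]
      obtain ⟨c, hcC, e, he, rfl⟩ := hCN g
      rw [hF c e he]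
      refine measure_mono fun n hn => ?_
      have hn' : c * (n : E) ∈ K := hn
      exact ⟨c⁻¹, inv_mem_inv.2 hcC, c * n, hn', by group⟩
    refine (lintegral_mono h3).trans_lt ?_
    rw [lintegral_const]
    exact ENNReal.mul_lt_top h2 (measure_lt_top _ _)
  let μ : Measure E := Measure.haar
  haveI hμr : IsMulRightInvariant μ := H515.right_invariant Γ ν hν μ
  have hμ' : μ' = haarScalarFactor μ' μ • μ := isMulLeftInvariant_eq_smul μ' μ
  -- the normal subgroup is unimodular
  haveI hlr : IsMulRightInvariant lam := by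
    refine H515.rightInv_of_modChar lam fun m => ?_
    have h1 : μ'.map (· * (m : E)) = (modularCharacterFun m : ℝ≥0) • μ' := by
      ext A hA
      have hmA : MeasurableSet ((fun x : E => x * (m : E)) ⁻¹' A) := measurable_mul_const _ hA
      have hκA : Measurable fun q => κ q A := (Measure.measurable_coe hA).comp hκm
      rw [Measure.map_apply (measurable_mul_const _) hA, hb _ hmA, Measure.smul_apply, hb _ hA,
        ENNReal.smul_def, smul_eq_mul, ← lintegral_const_mul _ hκA]
      refine lintegral_congr fun q => ?_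
      obtain ⟨x, rfl⟩ := QuotientGroup.mk_surjective q
      rw [hκ x _ hmA, hκ x _ hA]
      have h2 : (fun n : N => x * (n : E)) ⁻¹' ((fun y : E => y * (m : E)) ⁻¹' A) =
          (fun n : N => n * m) ⁻¹' ((fun n : N => x * (n : E)) ⁻¹' A) := by
        ext n
        simp only [mem_preimage, Subgroup.coe_mul, mul_assoc]
      show lam _ = _ * lam _
      rw [h2, ← Measure.map_apply (measurable_mul_const m) (hcs x hA),
        map_right_mul_eq_modularCharacterFun_smul lam m]
      rfl
    have h2 : μ'.map (· * (m : E)) = μ' := by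
      rw [hμ', Measure.map_smul, map_mul_right_eq_self]
    rw [h2] at h1
    have h3 : haarScalarFactor μ' μ ≠ 0 := by
      intro h0
      rw [h0, zero_smul] at hμ'
      have h4 : μ' univ = 0 := by rw [hμ']; rfl
      rw [hb _ MeasurableSet.univ] at h4
      have h5 : ∀ q, κ q univ = lam univ := fun q => by
        obtain ⟨g, rfl⟩ := QuotientGroup.mk_surjective q
        rw [hκ g _ MeasurableSet.univ]
        rfl
      simp only [h5, lintegral_const, mul_eq_zero] at h4
      rcases h4 with h4 | h4
      · exact (Measure.measure_univ_ne_zero.2 (NeZero.ne lam)) h4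
      · exact (Measure.measure_univ_ne_zero.2 (NeZero.ne η)) h4
    obtain ⟨K⟩ : Nonempty (TopologicalSpace.PositiveCompacts E) := inferInstance
    have hK0 : μ K ≠ 0 := (measure_pos_of_nonempty_interior _ K.interior_nonempty).ne'
    have hK1 : μ' K ≠ 0 := by
      rw [hμ', Measure.smul_apply, ENNReal.smul_def, smul_eq_mul]
      exact mul_ne_zero (by exact_mod_cast h3) hK0
    have hK2 : μ' K ≠ ∞ := K.isCompact.measure_lt_top.ne
    have h6 := congrArg (fun m : Measure E => m K) h1
    simp only [Measure.smul_apply, ENNReal.smul_def, smul_eq_mul] at h6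
    have h7 : (modularCharacterFun m : ℝ≥0∞) * μ' K = 1 * μ' K := by rw [one_mul]; exact h6.symm
    rw [ENNReal.mul_left_inj hK1 hK2] at h7
    exact_mod_cast h7
  have hfd : μ' (fdom Γ) < ∞ := by
    rw [hμ']
    exact ENNReal.mul_lt_top ENNReal.coe_lt_top (H515.fdom_lt_top Γ ν hν μ)
  rw [hb _ (fdom_meas Γ)] at hfd
  have hae : ∀ᵐ q ∂η, κ q (fdom Γ) < ∞ := by
    refine ae_lt_top ?_ hfd.ne
    exact (Measure.measurable_coe (fdom_meas Γ)).comp hκm
  haveI : NeZero η := inferInstance
  obtain ⟨q, hq⟩ := hae.exists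
  obtain ⟨g, rfl⟩ := QuotientGroup.mk_surjective q
  rw [hκ g _ (fdom_meas Γ)] at hq
  haveI := disc_subgroupOf N Γ hΓ.disc
  have h := H515.isLattice_of_cover (E := N) (Γ.subgroupOf N) lam
    (F := (fun n : N => g * (n : E)) ⁻¹' fdom Γ) hq (by
      intro x
      obtain ⟨v, hv, -⟩ := H515.existsUnique_right Γ (g * x)
      refine ⟨⟨⟨v, hΓN v.2⟩, v.2⟩, ?_⟩
      show g * ((x * ⟨(v : E), hΓN v.2⟩ : N) : E) ∈ fdom Γ
      rw [Subgroup.coe_mul, ← mul_assoc]
      exact hv)
  exact ⟨h.disc, h.covol⟩

end l1

section emb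

variable {F E : Type} [Group F] [TopologicalSpace F] [Group E] [TopologicalSpace E]
  [IsTopologicalGroup E] [T2Space E] [LocallyCompactSpace E] [SecondCountableTopology E]

/-- **Lattices under closed embeddings with normal cocompact range** -/
theorem lat_emb [IsTopologicalGroup F] (φ : F →* E) (hφ : IsClosedEmbedding φ)
    (hn : φ.range.Normal) {C : Set E} (hC : IsCompact C)
    (hCN : ∀ g : E, ∃ c ∈ C, ∃ e, g = c * φ e) (Γ : Subgroup F) (hΓ : IsLattice (Γ.map φ)) :
    IsLattice Γ := by
  have hcl : IsClosed (φ.range : Set E) := hφ.isClosed_range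
  have h1 := lat_normal φ.range hn hcl hC (fun g => by
    obtain ⟨c, hc, e, he⟩ := hCN g
    exact ⟨c, hc, φ e, ⟨e, rfl⟩, he⟩) (Γ.map φ) (by
      rintro _ ⟨x, -, rfl⟩
      exact ⟨x, rfl⟩) hΓ
  have hce : IsClosedEmbedding (Subtype.val : φ.range → E) := hcl.isClosedEmbedding_subtypeVal
  haveI : LocallyCompactSpace φ.range := hce.locallyCompactSpace
  haveI : SecondCountableTopology φ.range := TopologicalSpace.Subtype.secondCountableTopology _
  haveI : LocallyCompactSpace F := hφ.locallyCompactSpace
  haveI : T2Space F := hφ.isEmbedding.t2Space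
  haveI : SecondCountableTopology F := hφ.isEmbedding.secondCountableTopology
  have hbij : Function.Bijective φ.rangeRestrict :=
    ⟨fun x y h => hφ.injective (congrArg Subtype.val h), φ.rangeRestrict_surjective⟩
  obtain ⟨e, he⟩ : ∃ e : F ≃* φ.range, ∀ x, (e x : E) = φ x :=
    ⟨MulEquiv.ofBijective φ.rangeRestrict hbij, fun x => rfl⟩
  have hec : Continuous e := by
    rw [continuous_induced_rng]
    have h2 : (Subtype.val ∘ e : F → E) = φ := funext he
    rw [h2]
    exact hφ.continuous
  have hes : Continuous e.symm := by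
    rw [hφ.isInducing.continuous_iff]
    have h2 : (φ ∘ e.symm : φ.range → E) = Subtype.val := by
      funext x
      show φ (e.symm x) = x
      rw [← he, e.apply_symm_apply]
    rw [h2]
    exact continuous_subtype_val
  have h3 := H515.IsLattice.map_equiv e.symm hes hec
    (Λ := (Γ.map φ).subgroupOf φ.range) ⟨h1.disc, h1.covol⟩
  have h4 : ((Γ.map φ).subgroupOf φ.range).map (e.symm : φ.range →* F) = Γ := by
    ext x
    constructor
    · rintro ⟨y, hy, rfl⟩
      obtain ⟨z, hz, hzy⟩ := hy
      have h5 : e.symm y = z := by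
        rw [MulEquiv.symm_apply_eq]
        exact Subtype.ext (hzy.symm.trans (he z).symm)
      show e.symm y ∈ Γ
      rw [h5]
      exact hz
    · intro hx
      refine ⟨e x, ?_, e.symm_apply_apply x⟩
      exact ⟨x, hx, (he x).symm⟩
  rw [h4] at h3
  exact ⟨h3.disc, h3.covol⟩

end emb

/-- **The family form.** -/
theorem lat_pi {I Γ : Type} [Finite I] [Group Γ] {F E : I → Type} [∀ i, Group (F i)]
    [∀ i, TopologicalSpace (F i)] [∀ i, IsTopologicalGroup (F i)] [∀ i, Group (E i)]
    [∀ i, TopologicalSpace (E i)] [∀ i, IsTopologicalGroup (E i)] [∀ i, T2Space (E i)]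
    [∀ i, LocallyCompactSpace (E i)] [∀ i, SecondCountableTopology (E i)] (φ : ∀ i, F i →* E i)
    (hφ : ∀ i, IsClosedEmbedding (φ i)) (hn : ∀ i, (φ i).range.Normal)
    (hC : ∀ i, ∃ C : Set (E i), IsCompact C ∧ ∀ g, ∃ c ∈ C, ∃ e, g = c * φ i e)
    (q : Γ →* ∀ i, E i) (q' : Γ →* ∀ i, F i) (hq : ∀ g i, q g i = φ i (q' g i))
    (h : IsLattice q.range) : IsLattice q'.range := by
  cases nonempty_fintype I
  choose C hCc hCG using hC
  obtain ⟨ψ, hψ⟩ : ∃ ψ : (∀ i, F i) →* ∀ i, E i, ∀ x i, ψ x i = φ i (x i) :=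
    ⟨MonoidHom.pi fun i => (φ i).comp (Pi.evalMonoidHom F i), fun x i => rfl⟩
  have hψe : IsClosedEmbedding ψ := by
    have h1 : (ψ : (∀ i, F i) → ∀ i, E i) = Pi.map fun i => (φ i : F i → E i) := by
      funext x i
      exact hψ x i
    rw [h1]
    exact IsClosedEmbedding.piMap hφ
  have hmem : ∀ x : ∀ i, E i, x ∈ ψ.range ↔ ∀ i, x i ∈ (φ i).range := by
    intro x
    constructor
    · rintro ⟨y, rfl⟩ i
      rw [hψ]
      exact ⟨y i, rfl⟩
    · intro hx
      choose y hy using hx
      exact ⟨y, funext fun i => by rw [hψ]; exact hy i⟩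
  have hψn : ψ.range.Normal := by
    refine ⟨fun x hx g => ?_⟩
    rw [hmem] at hx ⊢
    intro i
    exact (hn i).conj_mem _ (hx i) (g i)
  refine lat_emb ψ hψe hψn (isCompact_univ_pi hCc) (fun g => ?_) q'.range ?_
  · choose c hc e he using fun i => hCG i (g i)
    exact ⟨c, fun i _ => hc i, e, funext fun i => by
      show g i = c i * ψ e i
      rw [hψ]
      exact he i⟩
  · have h1 : q'.range.map ψ = q.range := by
      rw [MonoidHom.map_range]
      congr 1
      refine MonoidHom.ext fun g => funext fun i => ?_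
      show ψ (q' g) i = q g i
      rw [hψ, hq]
    rw [h1]
    exact h

end Vale.Agent.P092.H144.Mp
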