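import Vale.Agent.P092.H259.Mx.TypP
import Vale.Agent.P092.H144.Mp.Norm
import Mathlib.GroupTheory.FiniteAbelian.Basic

/-!
P092, project MIX (helper144), (L2): the closed subgroups of `PGL_n(k)` generated by `PSL_n(k)` and a
finitely generated subgroup are of the class `ClsV`, in every characteristic.
-/

set_option linter.all false

open Set Topology Filter MeasureTheory Matrix

namespace Vale.Agent.P092.H144.Mp

open Vale.Agent.P092.H188.LatP (PG sl t2_pg sc_pg lc_pg coc comm_sl)
open Vale.Agent.P092.H259.Mx (slh slh_normal slh_apply mem_comm_iff exists_pre)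

section cl

variable {k : Type} [NontriviallyNormedField k]

/-- closed annuli are compact -/
theorem compact_ann [ProperSpace k] {r : ℝ} (hr : 0 < r) (R : ℝ) :
    IsCompact {t : kˣ | r ≤ ‖(t : k)‖ ∧ ‖(t : k)‖ ≤ R} := by
  rw [Units.isEmbedding_val₀.isCompact_iff]
  have h1 : (Units.val '' {t : kˣ | r ≤ ‖(t : k)‖ ∧ ‖(t : k)‖ ≤ R}) =
      Metric.closedBall (0 : k) R ∩ {x : k | r ≤ ‖x‖} := by
    ext x
    simp only [mem_image, mem_setOf_eq, mem_inter_iff, mem_closedBall_zero_iff]
    constructor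
    · rintro ⟨t, ⟨h1, h2⟩, rfl⟩
      exact ⟨h2, h1⟩
    · rintro ⟨h2, h1⟩
      have hx : x ≠ 0 := by
        rintro rfl
        rw [norm_zero] at h1
        linarith
      exact ⟨Units.mk0 x hx, ⟨h1, h2⟩, rfl⟩
  rw [h1]
  exact (isCompact_closedBall _ _).inter_right (isClosed_le continuous_const continuous_norm)

/-- the `n`-th powers are closed -/
theorem isClosed_pow [ProperSpace k] {n : ℕ} (hn : n ≠ 0) :
    IsClosed {u : kˣ | ∃ v : kˣ, v ^ n = u} := by
  refine isClosed_of_closure_subset fun u hu => ?_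
  have hu0 : 0 < ‖(u : k)‖ := norm_pos_iff.2 u.ne_zero
  have hnc : Continuous fun t : kˣ => ‖(t : k)‖ := continuous_norm.comp Units.continuous_val
  have hB : {t : kˣ | ‖(u : k)‖ / 2 < ‖(t : k)‖ ∧ ‖(t : k)‖ < 2 * ‖(u : k)‖} ∈ 𝓝 u := by
    refine IsOpen.mem_nhds ?_ ⟨by linarith, by linarith⟩
    exact (isOpen_lt continuous_const hnc).inter (isOpen_lt hnc continuous_const)
  have hV : IsCompact {v : kˣ | min 1 (‖(u : k)‖ / 2) ≤ ‖(v : k)‖ ∧
      ‖(v : k)‖ ≤ max 1 (2 * ‖(u : k)‖)} := compact_ann (by positivity) _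
  have hVn := (hV.image (continuous_pow n)).isClosed
  have h1 : u ∈ closure ((fun v : kˣ => v ^ n) '' {v : kˣ | min 1 (‖(u : k)‖ / 2) ≤ ‖(v : k)‖ ∧
      ‖(v : k)‖ ≤ max 1 (2 * ‖(u : k)‖)}) := by
    rw [mem_closure_iff_nhds] at hu ⊢
    intro t ht
    obtain ⟨x, ⟨hx1, hx2, hx3⟩, v, rfl⟩ := hu _ (inter_mem ht hB)
    refine ⟨v ^ n, hx1, v, ⟨?_, ?_⟩, rfl⟩
    · rw [Units.val_pow_eq_pow_val, norm_pow] at hx2
      rcases le_total 1 ‖(v : k)‖ with h | h
      · exact (min_le_left _ _).trans h
      · refine (min_le_right _ _).trans (hx2.le.trans ?_)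
        exact pow_le_of_le_one (norm_nonneg _) h hn
    · rw [Units.val_pow_eq_pow_val, norm_pow] at hx3
      rcases le_total ‖(v : k)‖ 1 with h | h
      · exact h.trans (le_max_left _ _)
      · exact (le_self_pow₀ h hn).trans (hx3.le.trans (le_max_right _ _))
  rw [hVn.closure_eq] at h1
  obtain ⟨v, -, hv⟩ := h1
  exact ⟨v, hv⟩

variable {n : ℕ}

/-- scalar matrices -/
def scal (n : ℕ) (v : kˣ) : GL (Fin n) k :=
  ⟨scalar (Fin n) (v : k), scalar (Fin n) ((v⁻¹ : kˣ) : k), by
    rw [← map_mul, Units.mul_inv, map_one], by rw [← map_mul, Units.inv_mul, map_one]⟩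

theorem scal_mem (v : kˣ) : scal n v ∈ Subgroup.center (GL (Fin n) k) := by
  rw [GeneralLinearGroup.mem_center_iff_val_mem_range_scalar]
  exact ⟨_, rfl⟩

theorem det_scal (v : kˣ) : (scal n v).1.det = (v : k) ^ n := by
  change (scalar (Fin n) (v : k)).det = _
  rw [scalar_apply, det_diagonal, Finset.prod_const, Finset.card_univ, Fintype.card_fin]

theorem mk_mem_iff (hn : n ≠ 0) (g : GL (Fin n) k) :
    (QuotientGroup.mk g : PG k n) ∈ (slh k n).range ↔
      ∃ v : kˣ, v ^ n = GeneralLinearGroup.det g := by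
  constructor
  · rintro ⟨s, hs⟩
    have hs' : (QuotientGroup.mk (SpecialLinearGroup.toGL s) : PG k n) = QuotientGroup.mk g := hs
    rw [QuotientGroup.eq] at hs'
    obtain ⟨c, hc⟩ := GeneralLinearGroup.mem_center_iff_val_mem_range_scalar.1 hs'
    have h1 : g = SpecialLinearGroup.toGL s * ((SpecialLinearGroup.toGL s)⁻¹ * g) := by group
    have h2 : g.1.det = c ^ n := by
      rw [h1, Units.val_mul, det_mul, ← hc]
      have h3 : (SpecialLinearGroup.toGL s).1.det = 1 := s.2
      rw [h3, one_mul, scalar_apply, det_diagonal, Finset.prod_const, Finset.card_univ,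
        Fintype.card_fin]
    have h4 : c ≠ 0 := by
      rintro rfl
      rw [zero_pow hn] at h2
      exact ((Matrix.isUnit_iff_isUnit_det g.1).1 g.isUnit).ne_zero h2
    exact ⟨Units.mk0 c h4, Units.ext (by rw [Units.val_pow_eq_pow_val]; exact h2.symm)⟩
  · rintro ⟨v, hv⟩
    have hz := scal_mem (n := n) v⁻¹
    have hdet : (g * scal n v⁻¹).1.det = 1 := by
      have h4 : g.1.det = (v : k) ^ n := by
        have := congrArg Units.val hv
        rw [Units.val_pow_eq_pow_val] at this
        exact this.symm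
      rw [Units.val_mul, det_mul, det_scal, h4, ← mul_pow, Units.mul_inv, one_pow]
    refine ⟨⟨(g * scal n v⁻¹).1, hdet⟩, ?_⟩
    show (QuotientGroup.mk (SpecialLinearGroup.toGL _) : PG k n) = QuotientGroup.mk g
    have h5 : (SpecialLinearGroup.toGL
        (⟨(g * scal n v⁻¹).1, hdet⟩ : SpecialLinearGroup (Fin n) k)) = g * scal n v⁻¹ :=
      Units.ext rfl
    rw [h5]
    exact QuotientGroup.mk_mul_of_mem g hz

/-- **`PSL_n(k)` is closed in `PGL_n(k)`**, in every characteristic. -/
theorem slh_closed [ProperSpace k] (hn : n ≠ 0) : IsClosed ((slh k n).range : Set (PG k n)) := by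
  rw [← (QuotientGroup.isQuotientMap_mk (N := Subgroup.center (GL (Fin n) k))).isClosed_preimage]
  have hc : Continuous (GeneralLinearGroup.det : GL (Fin n) k → kˣ) := by
    rw [Units.continuous_iff]
    exact ⟨(Continuous.matrix_det continuous_id).comp Units.continuous_val,
      (Continuous.matrix_det continuous_id).comp (Units.continuous_val.comp continuous_inv)⟩
  have h1 : (QuotientGroup.mk ⁻¹' ((slh k n).range : Set (PG k n)) : Set (GL (Fin n) k)) =
      (GeneralLinearGroup.det : GL (Fin n) k → kˣ) ⁻¹' {u | ∃ v : kˣ, v ^ n = u} := by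
    ext g
    exact mk_mem_iff hn g
  rw [h1]
  exact (isClosed_pow hn).preimage hc

/-- the `n`-th power of an element of `PGL_n(k)` lies in `PSL_n(k)` -/
theorem pow_mem (hn : n ≠ 0) (x : PG k n) : x ^ n ∈ (slh k n).range := by
  obtain ⟨g, rfl⟩ := QuotientGroup.mk_surjective x
  have h1 : ((QuotientGroup.mk g : PG k n)) ^ n = QuotientGroup.mk (g ^ n) := rfl
  rw [h1, mk_mem_iff hn]
  exact ⟨GeneralLinearGroup.det g, by rw [map_pow]⟩

/-- **The image of a finitely generated group in `PGL_n(k)/PSL_n(k) = kˣ/(kˣ)ⁿ` is finite.** -/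
theorem finite_range {Γ : Type} [Group Γ] (hΓ : Group.FG Γ) (hn : n ≠ 0) (p : Γ →* PG k n)
    [(slh k n).range.Normal] :
    Finite ((QuotientGroup.mk' (slh k n).range).comp p).range := by
  have hcomm : ∀ a b : PG k n ⧸ (slh k n).range, a * b = b * a := by
    intro a b
    obtain ⟨x, rfl⟩ := QuotientGroup.mk_surjective a
    obtain ⟨y, rfl⟩ := QuotientGroup.mk_surjective b
    rw [← QuotientGroup.mk_mul, ← QuotientGroup.mk_mul, QuotientGroup.eq]
    obtain ⟨s, hs⟩ := comm_sl y⁻¹ x⁻¹
    refine ⟨s, ?_⟩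
    rw [slh_apply, ← hs]
    group
  have hpow : ∀ a : PG k n ⧸ (slh k n).range, a ^ n = 1 := by
    intro a
    obtain ⟨x, rfl⟩ := QuotientGroup.mk_surjective a
    rw [← QuotientGroup.mk_pow, QuotientGroup.eq_one_iff]
    exact pow_mem hn x
  letI : CommGroup ((QuotientGroup.mk' (slh k n).range).comp p).range :=
    { (inferInstance : Group ((QuotientGroup.mk' (slh k n).range).comp p).range) with
      mul_comm := fun a b => Subtype.ext (hcomm a b) }
  haveI : Group.FG ((QuotientGroup.mk' (slh k n).range).comp p).range := Group.fg_range _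
  refine CommGroup.finite_of_fg_isMulTorsion _ fun x => ?_
  rw [isOfFinOrder_iff_pow_eq_one]
  exact ⟨n, Nat.pos_of_ne_zero hn, Subtype.ext (hpow x)⟩

end cl

section typ

variable {G : Type} [Group G] [TopologicalSpace G] {k : Type} [NontriviallyNormedField k] {n : ℕ}
  {p : G →* PG k n}

/-- **The class of the subgroup**, in every characteristic. -/
theorem isSL_of [ProperSpace k] [IsTopologicalGroup G] (hn : 2 ≤ n) (hp : IsClosedEmbedding p)
    (hs : ∀ g : GL (Fin n) k, g.1.det = 1 → ∃ e, p e = QuotientGroup.mk g) :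
    UN.IsSL k ((slh k n).range.comap p) := by
  classical
  haveI := t2_pg k n
  haveI := lc_pg k n
  haveI := sc_pg k n
  choose q hq using fun x : commutator (GL (Fin n) k) => exists_pre hs x hn
  have hqN : ∀ x, q x ∈ (slh k n).range.comap p := by
    intro x
    rw [Subgroup.mem_comap, hq]
    obtain ⟨s, hs'⟩ := H188.LatP.exists_sl x.1 ((mem_comm_iff hn _).1 x.2)
    exact ⟨s, hs'.symm⟩
  obtain ⟨f, hf⟩ : ∃ f : commutator (GL (Fin n) k) →* (slh k n).range.comap p,
      ∀ x, (f x : G) = q x := by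
    refine ⟨{ toFun := fun x => ⟨q x, hqN x⟩, map_one' := ?_, map_mul' := ?_ }, fun x => rfl⟩
    · refine Subtype.ext (hp.injective ?_)
      show p (q 1) = p 1
      rw [hq, map_one]
      rfl
    · intro x y
      refine Subtype.ext (hp.injective ?_)
      show p (q (x * y)) = p (q x * q y)
      rw [map_mul, hq, hq, hq]
      rfl
  have hpf : ∀ x, p (f x : G) = QuotientGroup.mk x.1 := fun x => by rw [hf, hq]
  have hcont : Continuous f := by
    refine Continuous.subtype_mk (f := fun x => (f x : G)) ?_ _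
    rw [hp.isInducing.continuous_iff]
    have h1 : (p ∘ fun x => (f x : G)) = fun x => (QuotientGroup.mk x.1 : PG k n) :=
      funext hpf
    rw [h1]
    exact QuotientGroup.continuous_mk.comp continuous_subtype_val
  have hsurj : Function.Surjective f := by
    rintro ⟨x, hx⟩
    obtain ⟨s, hs'⟩ := hx
    have h1 : (SpecialLinearGroup.toGL s).1.det = 1 := s.2
    refine ⟨⟨SpecialLinearGroup.toGL s, (mem_comm_iff hn _).2 h1⟩, Subtype.ext (hp.injective ?_)⟩
    rw [hpf]
    exact hs'
  -- the open mapping theorem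
  haveI : LocallyCompactSpace G := hp.locallyCompactSpace
  haveI : T2Space G := hp.isEmbedding.t2Space
  have hNc : IsClosed (((slh k n).range.comap p : Subgroup G) : Set G) :=
    (slh_closed (by omega)).preimage hp.continuous
  haveI : LocallyCompactSpace ((slh k n).range.comap p) :=
    hNc.isClosedEmbedding_subtypeVal.locallyCompactSpace
  haveI h0 : SecondCountableTopology (Matrix (Fin n) (Fin n) k) :=
    inferInstanceAs (SecondCountableTopology (Fin n → Fin n → k))
  haveI h2 : SecondCountableTopology (Matrix (Fin n) (Fin n) k)ᵐᵒᵖ :=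
    MulOpposite.opHomeomorph.symm.secondCountableTopology
  haveI h3 : SecondCountableTopology (GL (Fin n) k) :=
    Units.isEmbedding_embedProduct.secondCountableTopology
  haveI h5 : LocallyCompactSpace (Matrix (Fin n) (Fin n) k) :=
    inferInstanceAs (LocallyCompactSpace (Fin n → Fin n → k))
  haveI h6 : LocallyCompactSpace (GL (Fin n) k) := inferInstance
  have hcl : IsClosed ((commutator (GL (Fin n) k) : Subgroup (GL (Fin n) k)) :
      Set (GL (Fin n) k)) := by
    have h7 : ((commutator (GL (Fin n) k) : Subgroup (GL (Fin n) k)) : Set (GL (Fin n) k)) =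
        {x | x.1.det = 1} := by
      ext x
      exact mem_comm_iff hn x
    rw [h7]
    exact isClosed_eq ((Continuous.matrix_det continuous_id).comp Units.continuous_val)
      continuous_const
  haveI : LocallyCompactSpace (commutator (GL (Fin n) k)) :=
    hcl.isClosedEmbedding_subtypeVal.locallyCompactSpace
  haveI h10 : SecondCountableTopology (commutator (GL (Fin n) k)) :=
    TopologicalSpace.Subtype.secondCountableTopology _
  haveI h11 : SigmaCompactSpace (commutator (GL (Fin n) k)) :=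
    sigmaCompactSpace_of_locallyCompact_secondCountable
  have hopen : IsOpenMap f := MonoidHom.isOpenMap_of_sigmaCompact f hsurj hcont
  refine ⟨n, hn, f, IsOpenMap.isQuotientMap hopen hcont hsurj, ?_⟩
  intro x hx
  have h8 : (QuotientGroup.mk x.1 : PG k n) = 1 := by
    rw [← hpf, MonoidHom.mem_ker.1 hx]
    exact map_one p
  have h9 : x.1 ∈ Subgroup.center (GL (Fin n) k) := (QuotientGroup.eq_one_iff _).1 h8
  rw [Subgroup.mem_center_iff]
  intro y
  exact Subtype.ext ((Subgroup.mem_center_iff.1 h9) y.1)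

/-- **Closed subgroups of `PGL_n(k)` which contain `PSL_n(k)` as a subgroup of finite index are of
the class `ClsV`**, in every characteristic. -/
theorem clsV_of_fin [ProperSpace k] (hk : UN.LocK k) (hn : 2 ≤ n) (hp : IsClosedEmbedding p)
    (hs : ∀ g : GL (Fin n) k, g.1.det = 1 → ∃ e, p e = QuotientGroup.mk g)
    (hfi : ((slh k n).range.comap p).FiniteIndex) : UN.ClsV G := by
  haveI : IsTopologicalGroup G := hp.isInducing.topologicalGroup p
  have h1 := isSL_of hn hp hs
  haveI := slh_normal (k := k) (n := n)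
  have hNc : IsClosed (((slh k n).range.comap p : Subgroup G) : Set G) :=
    (slh_closed (by omega)).preimage hp.continuous
  have h2 : IsOpen (((slh k n).range.comap p : Subgroup G) : Set G) :=
    Subgroup.isOpen_of_isClosed_of_finiteIndex _ hNc
  exact ⟨inferInstance, (slh k n).range.comap p, inferInstance, hfi, h2, k, inferInstance,
    inferInstance, hk, Or.inr ⟨k, inferInstance, inferInstance, ⟨inferInstance, inferInstance⟩,
      Or.inl h1⟩⟩

end typ

/-- **(L2)** a finitely generated group with a homomorphism to `PGL_n(k)` lies in a closed normal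
cocompact subgroup which is of the class `ClsV`. -/
theorem exists_ovH' {k : Type} [NontriviallyNormedField k] [ProperSpace k] (hk : UN.LocK k) {n : ℕ}
    (hn : 2 ≤ n) {Γ : Type} [Group Γ] (hΓ : Group.FG Γ) (p : Γ →* PG k n) :
    ∃ H : Subgroup (PG k n), H.Normal ∧ IsClosed (H : Set (PG k n)) ∧ (slh k n).range ≤ H ∧
      p.range ≤ H ∧ (∃ C : Set (PG k n), IsCompact C ∧ ∀ g, ∃ c ∈ C, ∃ h : H, g = c * h) ∧
      (slh k n).range.relIndex H ≠ 0 ∧ UN.ClsV H := by
  have hn0 : n ≠ 0 := by omega
  haveI hnm := slh_normal (k := k) (n := n)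
  haveI := t2_pg k n
  have hcl := slh_closed (k := k) hn0
  haveI : IsClosed ((slh k n).range : Set (PG k n)) := hcl
  haveI : T2Space (PG k n ⧸ (slh k n).range) := inferInstance
  have hfin := finite_range hΓ hn0 p
  obtain ⟨R, hR⟩ : ∃ R : Subgroup (PG k n ⧸ (slh k n).range),
      R = ((QuotientGroup.mk' (slh k n).range).comp p).range := ⟨_, rfl⟩
  rw [← hR] at hfin
  obtain ⟨H, hH⟩ : ∃ H : Subgroup (PG k n), H = R.comap (QuotientGroup.mk' (slh k n).range) :=
    ⟨_, rfl⟩
  have hmem : ∀ x, x ∈ H ↔ (QuotientGroup.mk x : PG k n ⧸ (slh k n).range) ∈ R := by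
    intro x
    rw [hH]
    exact Iff.rfl
  have hSH : (slh k n).range ≤ H := by
    intro x hx
    rw [hmem, (QuotientGroup.eq_one_iff x).2 hx]
    exact one_mem _
  have hpH : p.range ≤ H := by
    rintro _ ⟨g, rfl⟩
    rw [hmem, hR]
    exact ⟨g, rfl⟩
  have hHc : IsClosed (H : Set (PG k n)) := by
    have h1 : (H : Set (PG k n)) =
        (QuotientGroup.mk : PG k n → PG k n ⧸ (slh k n).range) ⁻¹' (R : Set _) := by
      ext x
      exact hmem x
    rw [h1]
    exact (Set.toFinite _ : (R : Set (PG k n ⧸ (slh k n).range)).Finite).isClosed.preimage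
      QuotientGroup.continuous_mk
  have hHn : H.Normal := by
    refine ⟨fun x hx g => ?_⟩
    obtain ⟨s, hs⟩ := comm_sl g x
    have h1 : g * x * g⁻¹ = sl s * x := by rw [← hs, inv_mul_cancel_right]
    rw [h1]
    exact H.mul_mem (hSH ⟨s, rfl⟩) hx
  have hri : (slh k n).range.relIndex H ≠ 0 := by
    have h1 : (slh k n).range = (⊥ : Subgroup (PG k n ⧸ (slh k n).range)).comap
        (QuotientGroup.mk' (slh k n).range) := by
      rw [MonoidHom.comap_bot, QuotientGroup.ker_mk']
    rw [h1, Subgroup.relIndex_comap, Subgroup.relIndex_bot_left]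
    have h2 : H.map (QuotientGroup.mk' (slh k n).range) ≤ R := by
      rw [hH]
      exact Subgroup.map_comap_le _ _
    haveI : Finite R := hfin
    haveI : Finite (H.map (QuotientGroup.mk' (slh k n).range)) :=
      Finite.of_injective _ (Subgroup.inclusion_injective h2)
    exact Nat.card_pos.ne'
  refine ⟨H, hHn, hHc, hSH, hpH, ?_, hri, ?_⟩
  · obtain ⟨C, hC, hCG⟩ := coc (k := k) hn0
    refine ⟨C, hC, fun g => ?_⟩
    obtain ⟨c, hc, s, hs⟩ := hCG g
    exact ⟨c, hc, ⟨sl s, hSH ⟨s, rfl⟩⟩, hs⟩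
  · refine clsV_of_fin (p := H.subtype) hk hn hHc.isClosedEmbedding_subtypeVal ?_ ?_
    · intro g hg
      obtain ⟨s, hs⟩ := H188.LatP.exists_sl g hg
      exact ⟨⟨sl s, hSH ⟨s, rfl⟩⟩, hs.symm⟩
    · refine ⟨?_⟩
      rw [Subgroup.index_comap, Subgroup.range_subtype]
      exact hri

/-- **(L2)**, short form -/
theorem exists_ovH {k : Type} [NontriviallyNormedField k] [ProperSpace k] (hk : UN.LocK k) {n : ℕ}
    (hn : 2 ≤ n) {Γ : Type} [Group Γ] (hΓ : Group.FG Γ) (p : Γ →* PG k n) :
    ∃ H : Subgroup (PG k n), H.Normal ∧ IsClosed (H : Set (PG k n)) ∧ (slh k n).range ≤ H ∧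
      p.range ≤ H ∧ (∃ C : Set (PG k n), IsCompact C ∧ ∀ g, ∃ c ∈ C, ∃ h : H, g = c * h) ∧
      UN.ClsV H := by
  obtain ⟨H, h1, h2, h3, h4, h5, -, h6⟩ := exists_ovH' hk hn hΓ p
  exact ⟨H, h1, h2, h3, h4, h5, h6⟩

end Vale.Agent.P092.H144.Mp
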