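import Vale.Agent.P092.H259.Mx.Red
import Vale.Agent.P092.H144.Mp.Ovh
import Vale.Agent.P092.H144.Nc.All
import Vale.Agent.P092.H35.Mx.MinT
import Vale.Agent.P092.H759.TL.FG

/-!
P092, project MIX (helper144): the reduction of helper259 (`H259/Mx/Red.lean`) for the groups of type
`A_n` in every characteristic (without `n ≠ 0` in `k`), for lattices with property (T).
-/

set_option linter.all false

open Set Topology Filter MeasureTheory Matrix

namespace Vale.Agent.P092.H144.Mp

open Vale.Agent.P092.VR (Ov inc inc_inj lat_comap)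
open Vale.Agent.P092.H213.Nd (ND)
open Vale.Agent.P092.H188.LatP (PG sl t2_pg sc_pg lc_pg coc comm_sl)
open Vale.Agent.P092.H515.St (IsLattice)
open Vale.Agent.P092.SR.St (ICC SuperAll)
open Vale.Agent.P092.H259.Fk (OvG)
open Vale.Agent.P092.H259.Mx (KazT kazT_of_dense den_stmt step1 discrete_image BP Bpl slh)
open Vale.Agent.P092.H35.Mx (MinC)

/-- `G` is a closed subgroup of `PGL_n(k) = GL_n(k)/center`, `n ≥ 3`, `k` a local field, which
contains the classes of the matrices of determinant one. -/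
def TypeR (G : Type) [Group G] [TopologicalSpace G] : Prop :=
  ∃ (k : Type) (_ : NontriviallyNormedField k) (n : ℕ),
    ProperSpace k ∧ UN.LocK k ∧ 3 ≤ n ∧
    UN.ClosedIn (GL (Fin n) k ⧸ Subgroup.center (GL (Fin n) k)) G
      {x | ∃ g : GL (Fin n) k, g.1.det = 1 ∧ x = QuotientGroup.mk g}

theorem typeR_old {G : Type} [Group G] [TopologicalSpace G] (h : TypeR G) :
    ∃ (k : Type) (_ : NontriviallyNormedField k) (n : ℕ)
      (p : G →* GL (Fin n) k ⧸ Subgroup.center (GL (Fin n) k)),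
      ProperSpace k ∧ UN.LocK k ∧ 3 ≤ n ∧ Topology.IsClosedEmbedding p ∧
      ∀ g : GL (Fin n) k, g.1.det = 1 → ∃ e, p e = QuotientGroup.mk g := by
  obtain ⟨k, i, n, h1, h2, h3, p, hp, hs⟩ := h
  exact ⟨k, i, n, p, h1, h2, h3, hp, fun g hg => hs _ ⟨g, hg, rfl⟩⟩

theorem typeR_of_typeP {G : Type} [Group G] [TopologicalSpace G] (h : UN.TypeP G) : TypeR G := by
  obtain ⟨k, i, n, h1, h2, h3, -, h4⟩ := h
  exact ⟨k, i, n, h1, h2, h3, h4⟩

/-- the literal of project MIX for finitely generated groups, in every characteristic -/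
def MixStmtP : Prop :=
  ∀ (J B : Type) [Fintype J] [Fintype B] [Nonempty J] [Nonempty B] (k : J → Type)
    [∀ j, NontriviallyNormedField (k j)] (N : J → ℕ) (M G : B → Type) [∀ b, Group (M b)]
    [∀ b, TopologicalSpace (M b)] [∀ b, Group (G b)] [∀ b, TopologicalSpace (G b)]
    (φ : ∀ b, M b →* G b) (r : B → ℕ) (Γ : Subgroup ((∀ j, PG (k j) (N j + 1)) × ∀ b, G b)),
    ICC Γ → Group.FG Γ → (∀ b, Ov (φ b) (r b)) → (∀ b, MinC (G b)) → (∀ b, KazT (G b)) →
    (∀ j, ProperSpace (k j) ∧ UN.LocK (k j) ∧ 2 ≤ N j) →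
    (∀ b, DenseRange fun γ : Γ => (γ : (∀ j, PG (k j) (N j + 1)) × ∀ b, G b).2 b) →
    (∀ j, DiscreteTopology
      (Set.range fun γ : Γ => (γ : (∀ j, PG (k j) (N j + 1)) × ∀ b, G b).1 j)) →
    IsLattice Γ → SuperAll Γ

theorem fg_range' {Γ Δ : Type} [Group Γ] [Group Δ] (h : Group.FG Γ) (q : Γ →* Δ) :
    Group.FG q.range := Group.fg_range q

/-- the same with two homomorphisms, also without discrete, or without dense projections -/
def MixStmt0P : Prop :=
  ∀ (Γ : Type) [Group Γ] (N D : Type) [Fintype N] [Fintype D] (M H : N → Type)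
    [∀ i, Group (M i)] [∀ i, TopologicalSpace (M i)] [∀ i, Group (H i)]
    [∀ i, TopologicalSpace (H i)] (φ : ∀ i, M i →* H i) (r : N → ℕ) (k : D → Type)
    [∀ j, NontriviallyNormedField (k j)] (n : D → ℕ) (qN : ∀ i, Γ →* H i)
    (qD : ∀ j, Γ →* PG (k j) (n j)),
    ICC Γ → UN.PropT Γ → (∀ i, Ov (φ i) (r i)) → (∀ i, MinC (H i)) →
    (∀ j, ProperSpace (k j) ∧ UN.LocK (k j) ∧ 3 ≤ n j) →
    (∀ i, DenseRange (qN i)) → (∀ j, DiscreteTopology (qD j).range) →
    Function.Injective ((MonoidHom.pi qN).prod (MonoidHom.pi qD)) →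
    IsLattice ((MonoidHom.pi qN).prod (MonoidHom.pi qD)).range → UN.SuperAll Γ

theorem mix0_ofP (h : MixStmtP) (hP : ∀ (Γ : Type) [Group Γ], UN.LatticeP Γ → UN.SuperAll Γ) :
    MixStmt0P := by
  classical
  intro Γ _ B J _ _ M H _ _ _ _ φ r k _ n qN qD hicc hT hov hmc hk hdense hdisc hinj hlat
  haveI : ∀ j, ProperSpace (k j) := fun j => (hk j).1
  haveI : ∀ j, T2Space (PG (k j) (n j)) := fun j => t2_pg _ _
  haveI : ∀ j, SecondCountableTopology (PG (k j) (n j)) := fun j => sc_pg _ _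
  haveI : ∀ j, LocallyCompactSpace (PG (k j) (n j)) := fun j => lc_pg _ _
  haveI : ∀ i, IsTopologicalGroup (H i) := fun i => (hov i).top
  haveI : ∀ i, T2Space (H i) := fun i => H333.V.Ov.t2 (hov i)
  haveI : ∀ i, LocallyCompactSpace (H i) := fun i => H333.V.Ov.lc (hov i)
  haveI : ∀ i, SecondCountableTopology (H i) := fun i => H333.V.Ov.sc (hov i)
  -- no discrete projections
  rcases isEmpty_or_nonempty J with hJ | hJ
  · haveI : Subsingleton (∀ j, PG (k j) (n j)) := ⟨fun a b => funext fun j => (hJ.false j).elim⟩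
    haveI : Finite (∀ j, PG (k j) (n j)) := Finite.of_subsingleton
    haveI : CompactSpace (∀ j, PG (k j) (n j)) := Finite.compactSpace
    refine UN.superAll_of (den_stmt B M H φ r Γ (MonoidHom.pi qN) hicc hov hdense ?_ ?_)
    · intro a b hab
      exact hinj (Prod.ext hab (Subsingleton.elim _ _))
    · have h1 := Vale.Agent.P092.H259.Fk.lat_proper (MonoidHom.fst (∀ i, H i) (∀ j, PG (k j) (n j)))
        (isProperMap_fst_of_compactSpace) (by
          have : (MonoidHom.fst (∀ i, H i) (∀ j, PG (k j) (n j))).range = ⊤ :=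
            MonoidHom.range_eq_top.2 fun x => ⟨(x, 1), rfl⟩
          rw [this]
          infer_instance) hlat
      rw [MonoidHom.map_range] at h1
      exact h1
  -- no dense projections
  rcases isEmpty_or_nonempty B with hB | hB
  · haveI : Subsingleton (∀ i, H i) := ⟨fun a b => funext fun j => (hB.false j).elim⟩
    haveI : Finite (∀ i, H i) := Finite.of_subsingleton
    haveI : CompactSpace (∀ i, H i) := Finite.compactSpace
    have h1 := Vale.Agent.P092.H259.Fk.lat_proper (MonoidHom.snd (∀ i, H i) (∀ j, PG (k j) (n j)))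
        (isProperMap_snd_of_compactSpace) (by
          have : (MonoidHom.snd (∀ i, H i) (∀ j, PG (k j) (n j))).range = ⊤ :=
            MonoidHom.range_eq_top.2 fun x => ⟨(1, x), rfl⟩
          rw [this]
          infer_instance) hlat
    rw [MonoidHom.map_range] at h1
    refine hP Γ ⟨hicc, J, inferInstance, inferInstance, k, inferInstance, n,
      ∀ j, PG (k j) (n j), inferInstance, inferInstance, MonoidHom.id _, MonoidHom.pi qD,
      inferInstance, fun j => ⟨(hk j).1, (hk j).2.1, (hk j).2.2⟩,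
      (Homeomorph.refl _).isProperMap, fun j g _ => ⟨_, rfl⟩, ?_, (UN.isLattice_iff _).2 h1⟩
    intro a b hab
    exact hinj (Prod.ext (Subsingleton.elim _ _) hab)
  obtain ⟨N, hN⟩ : ∃ N : J → ℕ, n = fun j => N j + 1 := ⟨fun j => n j - 1, funext fun j =>
    (Nat.succ_pred_eq_of_pos (lt_of_lt_of_le (by norm_num) (hk j).2.2)).symm⟩
  subst hN
  obtain ⟨q, hq⟩ : ∃ q : Γ →* (∀ j, PG (k j) (N j + 1)) × ∀ i, H i,
      q = (MonoidHom.pi qD).prod (MonoidHom.pi qN) := ⟨_, rfl⟩
  obtain ⟨q', hq'⟩ : ∃ q' : Γ →* (∀ i, H i) × ∀ j, PG (k j) (N j + 1),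
      q' = (MonoidHom.pi qN).prod (MonoidHom.pi qD) := ⟨_, rfl⟩
  rw [← hq'] at hinj hlat
  obtain ⟨S, hS⟩ : ∃ S : ((∀ i, H i) × ∀ j, PG (k j) (N j + 1)) →*
      (∀ j, PG (k j) (N j + 1)) × ∀ i, H i, S = (MulEquiv.prodComm : ((∀ i, H i) ×
      ∀ j, PG (k j) (N j + 1)) ≃* (∀ j, PG (k j) (N j + 1)) × ∀ i, H i).toMonoidHom := ⟨_, rfl⟩
  have hSx : ∀ x, S x = x.swap := fun x => by rw [hS]; rfl
  have hSf : (S : ((∀ i, H i) × ∀ j, PG (k j) (N j + 1)) → _) =
      Homeomorph.prodComm (∀ i, H i) (∀ j, PG (k j) (N j + 1)) := funext fun x => hSx x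
  have hqg : ∀ g, q g = S (q' g) := fun g => by
    rw [hSx, hq, hq']
    rfl
  have hlat2 : IsLattice q.range := by
    have h1 : q.range = q'.range.map S := by
      ext x
      constructor
      · rintro ⟨g, rfl⟩
        exact ⟨q' g, ⟨g, rfl⟩, (hqg g).symm⟩
      · rintro ⟨_, ⟨g, rfl⟩, rfl⟩
        exact ⟨g, hqg g⟩
    rw [h1]
    refine Vale.Agent.P092.H259.Fk.lat_proper S ?_ ?_ hlat
    · rw [hSf]
      exact (Homeomorph.prodComm _ _).isProperMap
    · have : S.range = ⊤ := by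
        rw [MonoidHom.range_eq_top]
        have h3 := (Homeomorph.prodComm (∀ i, H i) (∀ j, PG (k j) (N j + 1))).surjective
        rw [← hSf] at h3
        exact h3
      rw [this]
      infer_instance
  have hinj2 : Function.Injective q := by
    intro a b hab
    rw [hqg, hqg, hSx, hSx] at hab
    exact hinj (Prod.swap_injective hab)
  refine UN.superAll_of (H58.superAll_equiv (MonoidHom.ofInjective hinj2) (h J B k N M H φ r
    q.range (H133.icc_equiv (MonoidHom.ofInjective hinj2) hicc) (fg_range' (H759.TL.fg_of_propT hT) q) hov hmc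
    (fun b => kazT_of_dense hT (qN b) (hdense b))
    (fun j => ⟨(hk j).1, (hk j).2.1, Nat.le_of_succ_le_succ (hk j).2.2⟩)
    (fun b => ?_) (fun j => ?_) hlat2))
  · refine (hdense b).mono ?_
    rintro _ ⟨g, rfl⟩
    refine ⟨⟨q g, g, rfl⟩, ?_⟩
    show (q g).2 b = qN b g
    rw [hq]
    rfl
  · have h1 : (Set.range fun γ : q.range => (γ : (∀ j, PG (k j) (N j + 1)) × ∀ i, H i).1 j) =
        (qD j).range := by
      ext x
      constructor
      · rintro ⟨⟨_, g, rfl⟩, rfl⟩
        refine ⟨g, ?_⟩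
        show qD j g = (q g).1 j
        rw [hq]
        rfl
      · rintro ⟨g, rfl⟩
        refine ⟨⟨q g, g, rfl⟩, ?_⟩
        show (q g).1 j = qD j g
        rw [hq]
        rfl
    rw [h1]
    exact hdisc j

/-- **The reduction.** -/
theorem superAll_redP (mix : MixStmt0P) {Γ I : Type} [Fintype I] [Group Γ] (hicc : ICC Γ)
    (hT : UN.PropT Γ)
    {G : I → Type} [∀ j, Group (G j)] [∀ j, TopologicalSpace (G j)] (q : Γ →* ∀ j, G j)
    (hi : Function.Injective q) (hlat : IsLattice q.range)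
    (h : ∀ j, BP (G j) (Set.range fun g => q g j) ∨
      TypeR (G j) ∧ DiscreteTopology (Set.range fun g => q g j)) : UN.SuperAll Γ := by
  classical
  obtain ⟨P, hP⟩ : ∃ P : I → Prop, ∀ j, P j ↔ BP (G j) (Set.range fun g => q g j) :=
    ⟨_, fun j => Iff.rfl⟩
  have h1 : ∀ i : {j // P j}, BP (G i) (Set.range fun g => q g i) := fun i => (hP i).1 i.2
  have h2 : ∀ j : {j // ¬ P j}, TypeR (G j) ∧ DiscreteTopology (Set.range fun g => q g j) :=
    fun j => (h j).resolve_left fun h' => j.2 ((hP j).2 h')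
  choose M gM tM φ r hφ using fun i => (h1 i).1
  choose k nk n ψ hk using fun j => typeR_old (h2 j).1
  haveI : ∀ j, ProperSpace (k j) := fun j => (hk j).1
  haveI : ∀ j, T2Space (PG (k j) (n j)) := fun j => t2_pg _ _
  haveI : ∀ j, SecondCountableTopology (PG (k j) (n j)) := fun j => sc_pg _ _
  -- topological groups
  have htop : ∀ j, IsTopologicalGroup (G j) := fun j => by
    by_cases hj : P j
    · exact (hφ ⟨j, hj⟩).top
    · exact (hk ⟨j, hj⟩).2.2.2.1.isInducing.topologicalGroup (ψ ⟨j, hj⟩)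
  haveI := htop
  have ht2 : ∀ j, T2Space (G j) := fun j => by
    by_cases hj : P j
    · exact H333.V.Ov.t2 (hφ ⟨j, hj⟩)
    · exact (hk ⟨j, hj⟩).2.2.2.1.isEmbedding.t2Space
  haveI := ht2
  haveI : ∀ i : {j // P j}, LocallyCompactSpace (G i) := fun i => H333.V.Ov.lc (hφ i)
  haveI : ∀ i : {j // P j}, SecondCountableTopology (G i) := fun i => H333.V.Ov.sc (hφ i)
  haveI : ∀ j : {j // ¬ P j}, LocallyCompactSpace (G j) := fun j => by
    haveI := lc_pg (k j) (n j)
    exact (hk j).2.2.2.1.locallyCompactSpace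
  -- the partition
  obtain ⟨e, he⟩ : ∃ e : (∀ j, G j) →* (∀ i : {j // P j}, G i) × ∀ j : {j // ¬ P j}, G j,
      ∀ x, e x = (fun i : {j // P j} => x i.1, fun j : {j // ¬ P j} => x j.1) :=
    ⟨(MonoidHom.pi fun i : {j // P j} => Pi.evalMonoidHom G i.1).prod
      (MonoidHom.pi fun j : {j // ¬ P j} => Pi.evalMonoidHom G j.1), fun x => rfl⟩
  have heh : (e : (∀ j, G j) → _) = Homeomorph.piEquivPiSubtypeProd P G := funext fun x => by
    rw [he]
    rfl
  have hs1 : IsLattice (q.range.map e) := by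
    refine Vale.Agent.P092.H259.Fk.lat_proper e ?_ ?_ hlat
    · rw [heh]
      exact (Homeomorph.piEquivPiSubtypeProd P G).isProperMap
    · have : e.range = ⊤ := by
        rw [MonoidHom.range_eq_top]
        have h3 := (Homeomorph.piEquivPiSubtypeProd P G).surjective
        rw [← heh] at h3
        exact h3
      rw [this]
      infer_instance
  have hs2 := step1 (n := n) (fun j => by
    have := (hk j).2.2.1
    omega) ψ (fun j => (hk j).2.2.2.1) (fun j s => (hk j).2.2.2.2 _ (by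
      show (s.1).det = 1
      exact s.2)) hs1
  obtain ⟨F, hF⟩ : ∃ F : ((∀ i : {j // P j}, G i) × ∀ j : {j // ¬ P j}, G j) →*
      (∀ i : {j // P j}, G i) × ∀ j : {j // ¬ P j}, PG (k j) (n j),
      F = (MonoidHom.fst (∀ i : {j // P j}, G i) (∀ j : {j // ¬ P j}, G j)).prod
      (MonoidHom.pi fun j => (ψ j).comp ((Pi.evalMonoidHom (fun j : {j // ¬ P j} => G j) j).comp
        (MonoidHom.snd (∀ i : {j // P j}, G i) (∀ j : {j // ¬ P j}, G j)))) := ⟨_, rfl⟩
  rw [← hF] at hs2
  have hFx : ∀ x, F x = (x.1, fun j => ψ j (x.2 j)) := fun x => by rw [hF]; rfl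
  -- the closures of the projections
  obtain ⟨H, hHd⟩ : ∃ H : ∀ i : {j // P j}, Subgroup (G i),
      ∀ i : {j // P j}, H i = ((Pi.evalMonoidHom G i.1).comp q).range.topologicalClosure :=
    ⟨_, fun i => rfl⟩
  have hle : ∀ i : {j // P j}, ((Pi.evalMonoidHom G i.1).comp q).range ≤ H i := fun i => by
    rw [hHd]
    exact Subgroup.le_topologicalClosure _
  have hcl : ∀ i : {j // P j}, IsClosed (H i : Set (G i)) := fun i => by
    rw [hHd]
    exact Subgroup.isClosed_topologicalClosure _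
  have hmem : ∀ (i : {j // P j}) g, q g i ∈ H i := fun i g => hle i ⟨g, rfl⟩
  have hcoe : ∀ i : {j // P j}, (H i : Set (G i)) = closure (Set.range fun g => q g i) :=
    fun i => by
      rw [hHd, Subgroup.topologicalClosure_coe, MonoidHom.coe_range]
      rfl
  have hν : ∀ i : {j // P j}, ∃ ν : @Measure (G i ⧸ H i) (borel (G i ⧸ H i)), ν ≠ 0 ∧ ν Set.univ < ⊤ ∧
      ∀ (g : G i) (s : Set (G i ⧸ H i)), MeasurableSet[borel (G i ⧸ H i)] s →
        ν ((fun x => g • x) ⁻¹' s) = ν s := fun i =>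
    Nd.push (Pi.evalMonoidHom G i.1) (continuous_apply i.1) (fun x =>
      ⟨Function.update 1 i.1 x, Function.update_self i.1 x 1⟩) q.range (H i) (by
      rintro _ ⟨g, rfl⟩
      exact hmem i g) hlat.covol
  have ho : ∀ i : {j // P j}, IsOpen (H i : Set (G i)) := by
    intro i
    rcases (h1 i).2.2 with h3 | ⟨h3, h4⟩
    · rw [hcoe]
      exact h3
    · refine h3 (H i) (hcl i) (hν i) fun h5 => h4 ?_
      have h6 : ∀ x : ↥(Set.range fun g => q g i), (x : G i) ∈ H i := by
        rintro ⟨_, g, rfl⟩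
        exact hmem i g
      exact DiscreteTopology.of_continuous_injective
        (f := fun x : ↥(Set.range fun g => q g i) => (⟨x.1, h6 x⟩ : H i))
        (Continuous.subtype_mk continuous_subtype_val h6)
        (fun x y hxy => Subtype.ext (congrArg (fun z : H i => (z : G i)) hxy))
  have hf : ∀ i, (H i).FiniteIndex := fun i => Nd.fin_index (H i) (ho i) (hν i)
  have hx : ∀ i x, φ i x ∈ H i := fun i => Nd.range_le (hφ i) (H i) (ho i) (hf i)
  have hov : ∀ i, Ov ((φ i).codRestrict (H i) (hx i)) (r i) := fun i =>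
    Nd.ov_sub (hφ i) (H i) (hx i)
  -- the data
  obtain ⟨qN, hqN⟩ : ∃ qN : ∀ i : {j // P j}, Γ →* H i, ∀ (i : {j // P j}) g,
      (qN i g : G i) = q g i :=
    ⟨fun i => ((Pi.evalMonoidHom G i.1).comp q).codRestrict (H i) (hmem i), fun i g => rfl⟩
  obtain ⟨qD, hqD⟩ : ∃ qD : ∀ j : {j // ¬ P j}, Γ →* PG (k j) (n j),
      ∀ (j : {j // ¬ P j}) g, qD j g = ψ j (q g j) :=
    ⟨fun j => (ψ j).comp ((Pi.evalMonoidHom G j.1).comp q), fun j g => rfl⟩
  obtain ⟨q', hq'⟩ : ∃ q' : Γ →* (∀ i, H i) × ∀ j, PG (k j) (n j),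
      q' = (MonoidHom.pi qN).prod (MonoidHom.pi qD) := ⟨_, rfl⟩
  obtain ⟨Φ, hΦ⟩ : ∃ Φ : ((∀ i, H i) × ∀ j, PG (k j) (n j)) →*
      (∀ i : {j // P j}, G i) × ∀ j : {j // ¬ P j}, PG (k j) (n j),
      ∀ x, Φ x = (fun i : {j // P j} => (x.1 i : G i), x.2) :=
    ⟨(MonoidHom.prodMap (inc fun i => (H i).subtype) (MonoidHom.id _)), fun x => rfl⟩
  have hΦq : ∀ g, Φ (q' g) = F (e (q g)) := by
    intro g
    rw [hΦ, hFx, he, hq']
    refine Prod.ext (funext fun i => ?_) (funext fun j => ?_)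
    · exact hqN i g
    · exact hqD j g
  have hΦi : Function.Injective Φ := by
    intro x y hxy
    rw [hΦ, hΦ] at hxy
    have h3 := congrArg Prod.fst hxy
    have h4 := congrArg Prod.snd hxy
    exact Prod.ext (funext fun i => Subtype.ext (congrFun h3 i)) h4
  have hΦf : (Φ : ((∀ i, H i) × ∀ j, PG (k j) (n j)) → _) =
      Prod.map (Pi.map fun i => ((H i).subtype : H i → G i)) id := funext fun x => hΦ x
  have hΦc : Continuous Φ := by
    rw [hΦf]
    exact (Continuous.piMap fun i => continuous_subtype_val).prodMap continuous_id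
  have hΦo : IsOpenMap Φ := by
    rw [hΦf]
    refine IsOpenMap.prodMap ?_ IsOpenMap.id
    refine IsOpenMap.piMap (f := fun i => ((H i).subtype : H i → G i))
      (fun i => (ho i).isOpenMap_subtype_val) ?_
    rw [Filter.cofinite_eq_bot]
    exact Filter.eventually_bot
  have hrange : q'.range = ((q.range.map e).map F).comap Φ := by
    ext x
    constructor
    · rintro ⟨g, rfl⟩
      exact ⟨e (q g), ⟨q g, ⟨g, rfl⟩, rfl⟩, (hΦq g).symm⟩
    · rintro ⟨_, ⟨_, ⟨g, rfl⟩, rfl⟩, hg⟩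
      refine ⟨g, hΦi ?_⟩
      rw [hΦq]
      exact hg
  have hlat' : IsLattice q'.range := by
    rw [hrange]
    have h3 := lat_comap Φ hΦi hΦc hΦo ((q.range.map e).map F)
      (⟨hs2.disc, hs2.covol⟩ : H515.IsLattice ((q.range.map e).map F))
    exact ⟨h3.disc, h3.covol⟩
  have hi' : Function.Injective q' := by
    intro a b hab
    refine hi (funext fun j => ?_)
    have h3 : F (e (q a)) = F (e (q b)) := by rw [← hΦq, ← hΦq, hab]
    rw [hFx, hFx, he, he] at h3
    by_cases hj : P j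
    · exact congrFun (congrArg Prod.fst h3) ⟨j, hj⟩
    · exact (hk ⟨j, hj⟩).2.2.2.1.injective (congrFun (congrArg Prod.snd h3) ⟨j, hj⟩)
  rw [hq'] at hlat' hi'
  refine mix Γ {j // P j} {j // ¬ P j} M (fun i => H i) (fun i => (φ i).codRestrict (H i) (hx i)) r
    k n qN qD hicc hT hov (fun i => (h1 i).2.1.of_injective (H i).subtype Subtype.val_injective)
    (fun j => ⟨(hk j).1, (hk j).2.1, (hk j).2.2.1⟩) (fun i => ?_)
    (fun j => ?_) hi' hlat'
  · show Dense (Set.range fun g => qN i g)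
    rw [Subtype.dense_iff]
    intro x hx
    rw [hcoe] at hx
    refine closure_mono ?_ hx
    rintro _ ⟨g, rfl⟩
    exact ⟨qN i g, ⟨g, rfl⟩, hqN i g⟩
  · have h3 : ((qD j).range : Set (PG (k j) (n j))) =
        (ψ j) '' (Set.range fun g => q g j) := by
      ext y
      constructor
      · rintro ⟨g, rfl⟩
        exact ⟨q g j, ⟨g, rfl⟩, (hqD j g).symm⟩
      · rintro ⟨_, ⟨g, rfl⟩, rfl⟩
        exact ⟨g, hqD j g⟩
    have h4 : DiscreteTopology ((qD j).range : Set (PG (k j) (n j))) := by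
      rw [h3]
      exact discrete_image (hk j).2.2.2.1.isEmbedding (h2 j).2
    exact h4


/-- **A place of type `A_n` is replaced by a closed subgroup of the class `ClsV`.** -/
theorem shrink {Γ G : Type} [Group Γ] [Group G] [TopologicalSpace G] (hΓ : Group.FG Γ)
    (h : TypeR G) (q : Γ →* G) : ∃ K : Subgroup G, K.Normal ∧ IsClosed (K : Set G) ∧
      (∃ C : Set G, IsCompact C ∧ ∀ g, ∃ c ∈ C, ∃ x : K, g = c * x) ∧ (∀ g, q g ∈ K) ∧ Bpl K ∧
      TypeR K := by
  obtain ⟨k, _, n, p, hps, hk, hn, hp, hs⟩ := typeR_old h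
  haveI : IsTopologicalGroup G := hp.isInducing.topologicalGroup p
  obtain ⟨H, hHn, hHc, hSH, hpH, -, hri, -⟩ := exists_ovH' hk (by omega : 2 ≤ n) hΓ (p.comp q)
  haveI := hHn
  have hKc : IsClosed ((H.comap p : Subgroup G) : Set G) := hHc.preimage hp.continuous
  have hce : IsClosedEmbedding (p.comp (H.comap p).subtype) :=
    hp.comp hKc.isClosedEmbedding_subtypeVal
  have hsK : ∀ g : GL (Fin n) k, g.1.det = 1 →
      ∃ e, (p.comp (H.comap p).subtype) e = QuotientGroup.mk g := by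
    intro g hg
    obtain ⟨e, he⟩ := hs g hg
    obtain ⟨s, hs'⟩ := H188.LatP.exists_sl g hg
    refine ⟨⟨e, ?_⟩, he⟩
    rw [Subgroup.mem_comap, he, hs']
    exact hSH ⟨s, rfl⟩
  have hcls : UN.ClsV (H.comap p : Subgroup G) := by
    refine clsV_of_fin hk (by omega : 2 ≤ n) hce hsK ⟨?_⟩
    rw [Subgroup.index_comap]
    refine fun h0 => hri (Subgroup.relIndex_eq_zero_of_le_right ?_ h0)
    rintro _ ⟨x, rfl⟩
    exact x.2
  refine ⟨H.comap p, inferInstance, hKc, ?_, fun g => hpH ⟨g, rfl⟩,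
    ⟨Vale.Agent.P092.H259.Fk.ovG_clsV hcls, H35.Mx.minC_of_pgl _ hce.injective,
      H144.Nc.nd_clsV hcls⟩,
    ⟨k, inferInstance, n, hps, hk, hn, p.comp (H.comap p).subtype, hce, ?_⟩⟩
  · obtain ⟨C, hC, hCG⟩ := coc (k := k) (n := n) (by omega)
    refine ⟨p ⁻¹' C, hp.isCompact_preimage hC, fun g => ?_⟩
    obtain ⟨c, hc, s, hs'⟩ := hCG (p g)
    obtain ⟨e, he⟩ := hs (SpecialLinearGroup.toGL s) s.2
    have he' : p e = sl s := he
    refine ⟨g * e⁻¹, ?_, ⟨e, ?_⟩, ?_⟩
    · show p (g * e⁻¹) ∈ C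
      rw [map_mul, map_inv, he', hs', mul_inv_cancel_right]
      exact hc
    · rw [Subgroup.mem_comap, he']
      exact hSH ⟨s, rfl⟩
    · show g = g * e⁻¹ * e
      rw [inv_mul_cancel_right]
  · rintro _ ⟨g, hg, rfl⟩
    exact hsK g hg

/-- **Lattices with property (T) of products of groups of type `A_n`, in every characteristic, and of
places with nondiscrete projection.** -/
theorem superAll_fam (mix : MixStmt0P) {Γ I : Type} [Fintype I] [Group Γ] (hicc : ICC Γ)
    (hT : UN.PropT Γ) {G : I → Type} [∀ j, Group (G j)] [∀ j, TopologicalSpace (G j)]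
    (q : Γ →* ∀ j, G j) (hi : Function.Injective q) (hlat : IsLattice q.range)
    (h : ∀ j, TypeR (G j) ∨ Bpl (G j) ∧ ¬ DiscreteTopology (Set.range fun g => q g j)) :
    UN.SuperAll Γ := by
  classical
  have hfg := H759.TL.fg_of_propT hT
  have htop : ∀ j, IsTopologicalGroup (G j) ∧ T2Space (G j) ∧ LocallyCompactSpace (G j) ∧
      SecondCountableTopology (G j) := by
    intro j
    rcases h j with h | ⟨h, -⟩
    · obtain ⟨k, _, n, p, hps, hk, hn, hp, hs⟩ := typeR_old h
      haveI := t2_pg k n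
      haveI := lc_pg k n
      haveI := sc_pg k n
      exact ⟨hp.isInducing.topologicalGroup p, hp.isEmbedding.t2Space, hp.locallyCompactSpace,
        hp.isEmbedding.secondCountableTopology⟩
    · obtain ⟨M, _, _, φ, r, h⟩ := h.ov
      exact ⟨h.top, H333.V.Ov.t2 h, H333.V.Ov.lc h, H333.V.Ov.sc h⟩
  haveI := fun j => (htop j).1
  haveI := fun j => (htop j).2.1
  haveI := fun j => (htop j).2.2.1
  haveI := fun j => (htop j).2.2.2
  have hK : ∀ j, ∃ (F : Type) (_ : Group F) (_ : TopologicalSpace F) (φ : F →* G j)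
      (q' : Γ →* F), IsTopologicalGroup F ∧ IsClosedEmbedding φ ∧ φ.range.Normal ∧
      (∃ C : Set (G j), IsCompact C ∧ ∀ g, ∃ c ∈ C, ∃ e, g = c * φ e) ∧
      (∀ g, q g j = φ (q' g)) ∧ Bpl F ∧ (TypeR F ∨ ¬ DiscreteTopology (Set.range q')) := by
    intro j
    rcases h j with h | ⟨h, hnd⟩
    · obtain ⟨K, hn, hc, ⟨C, hC, hCG⟩, hq, hb, ht⟩ :=
        shrink hfg h ((Pi.evalMonoidHom G j).comp q)
      refine ⟨K, inferInstance, inferInstance, K.subtype,
        ((Pi.evalMonoidHom G j).comp q).codRestrict K hq, inferInstance,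
        hc.isClosedEmbedding_subtypeVal, ?_, ⟨C, hC, hCG⟩, fun g => rfl, hb, Or.inl ht⟩
      rw [Subgroup.range_subtype]
      exact hn
    · refine ⟨G j, inferInstance, inferInstance, MonoidHom.id _, (Pi.evalMonoidHom G j).comp q,
        inferInstance, IsClosedEmbedding.id, ?_, ⟨{1}, isCompact_singleton, fun g =>
          ⟨1, rfl, g, (one_mul _).symm⟩⟩, fun g => rfl, h, Or.inr hnd⟩
      rw [MonoidHom.range_eq_top.2 Function.surjective_id]
      infer_instance
  choose F gF tF φ q' hFt hφ hφn hφC hq hB hR using hK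
  haveI := hFt
  have hlat' : IsLattice (MonoidHom.pi q').range :=
    lat_pi φ hφ hφn hφC q (MonoidHom.pi q') (fun g i => hq i g) hlat
  have hinj' : Function.Injective (MonoidHom.pi q') := by
    intro a b hab
    refine hi (funext fun j => ?_)
    rw [hq, hq]
    exact congrArg (φ j) (congrFun hab j)
  refine superAll_redP mix hicc hT (MonoidHom.pi q') hinj' hlat' fun j => ?_
  by_cases hd : DiscreteTopology (Set.range (q' j))
  · exact Or.inr ⟨(hR j).resolve_right (fun h => h hd), hd⟩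
  · exact Or.inl ⟨(hB j).ov, (hB j).mc, Or.inr ⟨(hB j).nd, hd⟩⟩

/-- **The class theorem** for lattices of a group `E` with a proper homomorphism onto a subgroup of
finite index of the product. -/
theorem superAll_bdP (mix : MixStmtP)
    (hP : ∀ (Γ : Type) [Group Γ], UN.LatticeP Γ → UN.SuperAll Γ) {Γ I : Type} [Fintype I]
    [Group Γ] (hicc : UN.ICC Γ) (hT : UN.PropT Γ) {G : I → Type} [∀ j, Group (G j)]
    [∀ j, TopologicalSpace (G j)] {E : Type} [Group E] [TopologicalSpace E]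
    [IsTopologicalGroup E] (f : E →* ∀ j, G j) (hf : IsProperMap f) (hr : f.range.FiniteIndex)
    (i : Γ →* E) (hi : Function.Injective i) (hl : UN.IsLattice i.range)
    (h : ∀ j, TypeR (G j) ∨
      Bpl (G j) ∧ ¬ DiscreteTopology (Set.range fun g => f (i g) j)) : UN.SuperAll Γ := by
  have htop : ∀ j, IsTopologicalGroup (G j) ∧ T2Space (G j) ∧ LocallyCompactSpace (G j) := by
    intro j
    rcases h j with h | ⟨h, -⟩
    · obtain ⟨k, _, n, p, hps, hk, hn, hp, hs⟩ := typeR_old h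
      haveI := t2_pg k n
      haveI := lc_pg k n
      exact ⟨hp.isInducing.topologicalGroup p, hp.isEmbedding.t2Space, hp.locallyCompactSpace⟩
    · obtain ⟨M, _, _, φ, r, h⟩ := h.ov
      exact ⟨h.top, H333.V.Ov.t2 h, H333.V.Ov.lc h⟩
  haveI := fun j => (htop j).1
  haveI := fun j => (htop j).2.1
  haveI := fun j => (htop j).2.2
  obtain ⟨h3, h4⟩ := Vale.Agent.P092.H259.Fk.lat_proper' hicc f hf hr i hi ⟨hl.disc, hl.covol⟩
  exact superAll_fam (mix0_ofP mix hP) ((UN.icc_iff Γ).1 hicc) hT (f.comp i) h3 h4 h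

end Vale.Agent.P092.H144.Mp
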